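import Mathlib

/-!
# The Virasoro conjecture for complete intersections: the statement

Gromov-Witten invariants are defined as in Behrend (1997) and Behrend-Fantechi (1997), through a
global presentation of the moduli stack of stable maps with its obstruction theory (`c91`).

* `S / G` is a smooth stack with a flat family of pointed nodal curves `C x` and maps
  `s : C x → ℙ(V)` given by sections of `V ⊗ O(a)`, `H¹(O(a)) = 0` (`c57`, `c69`). The dimension
  formula and the tangent clauses of `c79` say that `S / G` is smooth over the stack `𝔐_{g,n}` of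
  pointed nodal curves, with relative tangent bundle `π_* s^* T ℙ(V)`.
* `C × X` is embedded in `C × ℙ(V)` by `j`, with reduced equations `H` (`c58`). The zero scheme `sol` of
  the section `σ = H(s)` of the vector bundle `P / van` is the locus where `s` is the graph of a map
  `f : C → X`. By `c73` and the fifth clause of `c91`, `sol / G` is an open substack of the stack of
  stable maps with possibly disconnected domains, and it contains `M̄_{g,n}(X, β)`, the open and closed
  part selected by `c81`. (Every projective nodal curve has a projectively normal embedding with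
  `H¹(O(1)) = 0`, as the test curves of that clause.)
* By `0 → f^* T X → s^* T ℙ(V) → N → 0`, the complex `[π_* s^* T ℙ(V) → π_* N]` is `R π_* f^* T X`, the dual
  of the standard relative obstruction theory, and `obs / van = π_* N`. The normal cone of `sol` in `S`
  lies in this bundle and the virtual class is its Gysin pull-back `0^! [C]` (`c89`). The statement
  includes that the integrals do not depend on the presentation (`c35`).
-/

noncomputable section

namespace Vale.Agent.P269L.Pn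

open Set Function Topology Filter MvPolynomial Classical

section

variable {X Y : Type} {n : ℕ}

variable (n) in
/-- (Cn) The space `ℂ^n`. -/
def c20 : Type := Fin n → ℂ

instance c21 : NormedAddCommGroup (c20 n) := Pi.normedAddCommGroup

instance c22 : NormedSpace ℂ (c20 n) := Pi.normedSpace

/-- (VM) The space `∏ ℂ^(M i)`. -/
def c92 {ι : Type} (M : ι → ℕ) : Type := ∀ i, c20 (M i)

instance c93 {ι : Type} [Fintype ι] (M : ι → ℕ) : NormedAddCommGroup (c92 M) := Pi.normedAddCommGroup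

instance c94 {ι : Type} [Fintype ι] (M : ι → ℕ) : NormedSpace ℂ (c92 M) := Pi.normedSpace


variable (X) in
/-- (Co) Functions of lists of points. -/
abbrev c9 : Type := List X → ℂ

variable (X) in
/-- (Bm) Functionals on cochains. -/
abbrev c10 : Type := c9 X → ℂ

/-- (cup) The cup product. -/
def c23 (a b : c9 X) : c9 X := fun l =>
  ∑ p ∈ Finset.range l.length, a (l.take (p + 1)) * b (l.drop p)

/-- (cob) The coboundary. -/
def c13 (a : c9 X) : c9 X := fun l =>
  ∑ i ∈ Finset.range l.length, (-1) ^ i * a (l.eraseIdx i)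

/-- (unit) The unit: the constant function one of degree zero. -/
def c24 : c9 X := fun l => if l.length = 1 then 1 else 0

/-- (prd) The product of a list of cochains. -/
def c25 (a : List (c9 X)) : c9 X := a.foldr c23 c24

/-- (pull) Pull-back along a map. -/
def c18 (f : X → Y) (a : c9 Y) : c9 X := fun l => a (l.map f)

/-- (Bd) `a` is a finite sum of homogeneous cochains of degrees `0, 1, 2, …`. -/
def c11 (a : c9 X) : Prop := a [] = 0 ∧ ∃ N, ∀ l : List X, N < l.length → a l = 0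

/-- (IsDeg) `a` is homogeneous of degree `k`. -/
def c16 (k : ℤ) (a : c9 X) : Prop := ∀ l : List X, (l.length : ℤ) ≠ k + 1 → a l = 0

/-- (ind) The indicator function of a subset, a cochain of degree zero. -/
def c82 (q : X → Prop) : c9 X := fun l => if ∃ y, q y ∧ l = [y] then 1 else 0

/-- (tau) The orientation cocycle of `ℂ^r`, with support at the origin: the product of the coboundaries
of the winding cochains `(z₀, z₁) ↦ log (z₁ / z₀) / (2 π i)` of the coordinates. -/
def c26 (r : ℕ) : c9 (Fin r → ℂ) :=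
  c25 (List.ofFn fun i => c18 (fun z => z i) (c13 fun l =>
    if l.length = 2 then Complex.log (l.getD 1 0 / l.getD 0 0) / ((2 : ℕ) * Real.pi * Complex.I) else 0))

variable [TopologicalSpace X]

/-- (supp) The support: the points near which `a` does not vanish on all lists of nearby points. -/
def c12 (a : c9 X) : Set X := {x | ∀ U ∈ 𝓝 x, ∃ l : List X, (∀ y ∈ l, y ∈ U) ∧ a l ≠ 0}

/-- (Cohom) `a` and `b` are cohomologous through a cochain with support in `U`. -/
def c17 (U : Set X) (a b : c9 X) : Prop :=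
  ∃ c, c11 c ∧ c12 c ⊆ U ∧ c12 (fun l => a l - b l - c13 c l) = ∅

/-- (Zc) Cocycles with compact support. -/
def c14 (a : c9 X) : Prop := c11 a ∧ IsCompact (c12 a) ∧ c12 (c13 a) = ∅

/-- (IsBM) Borel-Moore classes: linear functionals on the cocycles with compact support (extended by zero)
that vanish on the coboundaries of cochains with compact support. -/
def c15 (β : c10 X) : Prop :=
  (∀ a, ¬c14 a → β a = 0) ∧
  (∀ (s : ℂ) a b, c14 a → c14 b → β (fun l => s * a l + b l) = s * β a + β b) ∧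
  ∀ a c, c11 c → IsCompact (c12 c) → c12 (fun l => a l - c13 c l) = ∅ → β a = 0

end

/-- (len) The length of a ring. -/
def c85 (L : Type) [CommRing L] : ℂ := (Module.length L L).toNat

/-- (Mlt) `m` is the length of the localisation of `R` at a minimal prime. -/
def c86 (R : Type) [CommRing R] (m : ℂ) : Prop :=
  ∃ (p : Ideal R) (_ : p.IsPrime), p ∈ minimalPrimes R ∧ m = c85 (Localization.AtPrime p)

/-- (MltQ) The same for `R / (k)`. -/
def c87 {R : Type} [CommRing R] (k : Set R) : ℂ → Prop := c86 (R ⧸ Ideal.span k)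

/-- (MltS) The same for `a / (k)`, where `a` is a subring. -/
def c88 {R : Type} [CommRing R] (a k : Set R) : ℂ → Prop :=
  c87 {f : Subring.closure a | f.1 ∈ k}

section

variable {A W P E : Type} [NormedRing A] [NormedAlgebra ℂ A] [NormedAddCommGroup W] [NormedSpace ℂ W]
  [NormedAddCommGroup E] [NormedSpace ℂ E] [AddCommGroup P] [Module ℂ P] [TopologicalSpace P]
  (act : A → W → W) (ρ : A → P → P) (S : Set W) (B N : W → Submodule ℂ P)

/-- (Orb) The orbit relation. -/
def c3 (x y : S) : Prop := ∃ a, IsUnit a ∧ y.1 = act a x.1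

/-- (Quo) The orbit space `S / Aˣ`. -/
def c4 : Type := Quot (c3 act S)

instance c7 : TopologicalSpace (c4 act S) := instTopologicalSpaceQuot

/-- (pick) A representative of an orbit. -/
def c44 (z : c4 act S) : W := (Quot.out z).1

/-- (Slc) The values of `β` at the centres of the slices. -/
def c19 (m : W → ℂ → Prop) (τ : c9 E) (q : Prop) (β : c10 (c4 act S)) : Prop :=
  ∀ (U : Set E) (φ : U → S) (h : 0 ∈ U) (Φ : E → W),
    let μ := fun y : A × E => act y.1 (Φ y.2)
    let X := c4 act S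
    let ψ : U → X := fun z => Quot.mk _ (φ z)
    IsOpen U → AnalyticOnNhd ℂ Φ U → (∀ z, (φ z).1 = Φ z.1) → Injective (fderiv ℂ μ (1, 0)) →
    𝓝[S] (Φ 0) ≤ map μ (𝓝 (1, 0)) → q ∧ ∀ a : c9 X, c14 a → (∀ y, c12 a y → y = ψ ⟨0, h⟩) →
      c17 {z | z.1 = 0} (c18 ψ a) (c18 Subtype.val τ) →
      m (Φ 0) (β a * Nat.card {g // IsUnit g ∧ act g (Φ 0) = Φ 0})

/-- (IsCyc) `β` is the fundamental cycle of the quotient stack with multiplicities `m`. -/
def c27 (m : W → ℂ → Prop) (β : c10 (c4 act S)) : Prop :=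
  c15 β ∧ ∃ d : ℕ, (∀ j a, j ≠ 2 * (d : ℤ) → c16 j a → β a = 0) ∧
    ∀ r, c19 (E := c20 r) act S m (c26 r) (r = d) β

/-- (IsFund) The fundamental class: all multiplicities are one. -/
def c28 : c10 (c4 act S) → Prop := c27 act S fun _ z => z = 1

/-- (Fib) Vectors in the subspaces `B x`. -/
def c38 : Type := {z : W × P // z.1 ∈ S ∧ z.2 ∈ B z.1}

/-- (Fib.pr) The underlying pair. -/
def c38.c39 (z : c38 S B) : W × P := z.1

/-- (TRel) The relation defining the total space. -/
def c40 (x y : c38 S B) : Prop :=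
  let u := x.c39 S B
  let v := y.c39 S B
  ∃ a, IsUnit a ∧ v.1 = act a u.1 ∧ v.2 - ρ a u.2 ∈ N v.1

/-- (Tot) The total space of the orbifold vector bundle over `S / Aˣ` with fibres `B x / N x`, where
`N x ⊆ B x` are subspaces of a vector space `P` on which `a` acts by `ρ a`. -/
def c41 : Type := Quot (c40 act ρ S B N)

instance c43 : TopologicalSpace (c41 act ρ S B N) :=
  @instTopologicalSpaceQuot _ _ instTopologicalSpaceSubtype

/-- (IsThom) `t` is a Thom cocycle of a bundle with total space `X`, where `T x v z` says that `z` is the class of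
the vector `v` in the fibre `B x / N x`: a cocycle with support in the zero section that restricts to
the orientation cocycle, in degree `2 r`, on every linear parametrisation of a fibre. -/
def c42 {X Z : Type} [TopologicalSpace X] (B N : Z → Submodule ℂ P) (T : Z → P → X → Prop)
    (t : c9 X) : Prop :=
  c11 t ∧ c12 (c13 t) = ∅ ∧ (∀ z ∈ c12 t, ∃ x, T x 0 z) ∧
    ∀ (r : ℕ) (φ : (Fin r → ℂ) → X) (x : Z) (v : Fin r → P),
      (∀ c : Fin r → ℂ, ∑ i, c i • v i ∈ N x → ∀ i, c i = 0) →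
      Submodule.span ℂ (range v) ⊔ N x = B x → (∀ c, T x (∑ i, c i • v i) (φ c)) →
      c17 {c | ∀ i, c i = 0} (c18 φ t) (c26 r) ∧ ∀ c l, l.length ≠ 2 * r → t (φ c :: l) = 0

/-- (IsLoc) `e` is the pull-back of a Thom cocycle of that bundle along the section given by an equivariant
map `σ` with `σ x ∈ B x`. -/
def c45 (σ : W → P) (e : c9 (c4 act S)) : Prop :=
  let X := c41 act ρ S B N
  let T := fun x v (z : X) => ∃ y, y.c39 S B = (x, v) ∧ z = Quot.mk _ y
  ∃ s t, c42 B N T t ∧ e = c18 s t ∧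
    ∀ z, let x := c44 act S z; T x (if σ x ∈ B x then σ x else 0) (s z)

/-- (IsEuler) `e` is a cocycle representing the Euler class (for a line bundle, `c₁`) of the bundle with fibres
`span (B' x) / span (N' x)`: the pull-back of a Thom cocycle along the zero section. -/
def c46 (B' N' : W → Set P) : c9 (c4 act S) → Prop :=
  c45 act ρ S (fun x => Submodule.span ℂ (B' x)) (fun x => Submodule.span ℂ (N' x)) fun _ => 0

/-- (Form) `q` is a form of degree `n` on `E` with coefficients holomorphic at `x`. -/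
def c83 (n : ℕ) (x : W) (q : W × E → ℂ) : Prop :=
  AnalyticAt ℂ q (x, 0) ∧ ∀ z u (t : ℂ), q (z, t • u) = t ^ n * q (z, u)

/-- (Ini) The equations at `y` of the normal cone of `M ∩ {u = 0}` in `M`. -/
def c84 (M : Set (W × E)) (y : W × E) : Set (W × E → ℂ) :=
  let x := (y.1, (0 : E))
  {f | ∃ n q q', c83 n x q ∧ c83 (n + 1) x q' ∧
    (∀ᶠ z in 𝓝[M] x, q (z, z.2) = q' (z, z.2)) ∧ f =ᶠ[𝓝 y] fun z => q ((z.1, 0), z.2)}

/-- (VirE) The virtual class of `sol / Aˣ`: `K y` are the equations at `y` of the normal cone `C` of the zero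
scheme of `σ` in `S` (pulled back from `E / van` to `E`); `C` lies in the obstruction bundle `obs`, and
`v` is the intersection of the cycle of `C` with the zero section. -/
def c89 (ρ : A → E → E) (S sol : Set W) (van obs : W → Set E) (σ : W → E)
    (v : c10 (c4 act sol)) : Prop :=
  let K := c84 {z : W × E | z.1 ∈ S ∧ σ z.1 - z.2 ∈ van z.1}
  let C := {y | y.1 ∈ sol ∧ ∀ f ∈ K y, f y = 0}
  let act' := fun a (y : W × E) => (act a y.1, ρ a y.2)
  let X := c4 act' C
  let Y := c4 act sol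
  (∀ y ∈ C, y.2 ∈ obs y.1) ∧ ∃ (β : c10 X) (e : c9 X) (π : X → Y),
    c27 act' C (fun y => c88 {f | AnalyticAt ℂ f y} (K y)) β ∧
    c45 act' ρ C (fun y => Submodule.span ℂ (obs y.1)) (fun _ => ⊥) (fun y => y.2) e ∧
    (∀ y : C, ∃ x : sol, x.1 = y.1.1 ∧ π (Quot.mk _ y) = Quot.mk _ x) ∧ c15 v ∧
    ∀ a : c9 Y, c14 a → v a = β (c23 (c18 π a) e)

end

/-- (scal) The action of `ℂˣ`. -/
def c5 {J : Type} (t : Unit → ℂ) (x : J → ℂ) (j : J) : ℂ := t () * x j

section

variable {B B' B'' E E' E'' F ι : Type} [Monoid B] [Monoid B'] [Monoid B''] [NormedAddCommGroup E]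
  [NormedSpace ℂ E] [NormedAddCommGroup E'] [NormedSpace ℂ E'] [NormedAddCommGroup F]
  [NormedSpace ℂ F] [Fintype ι] {n : ℕ}

/-- (Ext) `g` is holomorphic at `x` and agrees with `s` on `S` near `x`. -/
def c67 (S : Set E) (s : E → F) (x : E) (g : E → F) : Prop :=
  AnalyticAt ℂ g x ∧ ∀ᶠ y in 𝓝[S] x, s y = g y

/-- (Tan) The Zariski tangent space at `x` of the reduced analytic set `S`. -/
def c74 (S : Set E) (x : E) : Set E := {v | ∀ h : E → ℂ, c67 S 0 x h → fderiv ℂ h x v = 0}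

variable (F) in
/-- (Mfd) Near `x` the set `S` is a complex submanifold modelled on `F`. -/
def c59 (S : Set E) (x : E) : Prop :=
  ∃ Φ : F → E, AnalyticAt ℂ Φ 0 ∧ Injective (fderiv ℂ Φ 0) ∧ map Φ (𝓝 0) = 𝓝[S] x

variable (act : B → E → E) (act' : B' → E' → E') (act'' : B'' → E'' → E'')

/-- (Same) Two vectors give the same point. -/
def c60 (c c' : E) : Prop := ∃ t, IsUnit t ∧ c' = act t c

/-- (Dir) The directions of the orbit of the torus. -/
def c61 (c : E) : Set E := range fun t => act t c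

variable (C : Set E) (C' : Set E')

/-- (Sec) `e` is a holomorphic section over the curve of the bundle with fibres `F / T c`, on which the
torus acts by `χ`. -/
def c64 (χ : B → F → F) (T : E → Set F) (e : E → F) : Prop :=
  ∀ c ∈ C, (∀ t, IsUnit t → e (act t c) - χ t (e c) ∈ T (act t c)) ∧
    ∃ g, AnalyticAt ℂ g c ∧ ∀ᶠ y in 𝓝[C] c, e y - g y ∈ T y

/-- (Hol) `φ` induces a holomorphic map of the quotients of `C` and `C'` by the tori. -/
def c70 (φ : E → E') : Prop :=
  ∀ c ∈ C, φ c ∈ C' ∧ (∀ t, IsUnit t → c60 act' (φ c) (φ (act t c))) ∧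
    ∃ g, AnalyticAt ℂ g c ∧ ∀ᶠ y in 𝓝[C] c, c60 act' (g y) (φ y)

/-- (Iso) `φ` is an isomorphism from `(C, p, f)` to `(C', p', f')`. -/
def c71 (p : Fin n → E) (p' : Fin n → E') (f : E → E'') (f' : E' → E'') (φ : E → E') : Prop :=
  c70 act act' C C' φ ∧ (∃ ψ, c70 act' act C' C ψ ∧ (∀ c ∈ C, c60 act c (ψ (φ c))) ∧
    ∀ c ∈ C', c60 act' c (φ (ψ c))) ∧ (∀ i, c60 act' (p' i) (φ (p i))) ∧
    ∀ c ∈ C, c60 act'' (f c) (f' (φ c))

/-- (Br) An immersed holomorphic disc in the curve. -/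
def c62 (γ : ℂ → E) : Prop :=
  AnalyticAt ℂ γ 0 ∧ (∀ᶠ t in 𝓝 0, γ t ∈ C) ∧ deriv γ 0 ∉ c61 act (γ 0)

/-- (Cross) Two branches through `c` with different tangent lines. -/
def c63 (c : E) (γ δ : ℂ → E) : Prop :=
  c62 act C γ ∧ c62 act C δ ∧ γ 0 = c ∧ δ 0 = c ∧ ∀ s : ℂ, deriv γ 0 - s • deriv δ 0 ∉ c61 act c

/-- (Chr) The character `t ↦ t^a`. -/
def c80 (a : ι → ℕ) (t : ι → ℂ) : ℂ := ∏ i, t i ^ a i

variable (χ : (ι → ℕ) → B → ℂ)

/-- (Pol) The polynomials of multidegree `a`; `χ a` is the character `t ↦ t^a`. -/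
def c65 (a : ι → ℕ) : Set (E → ℂ) := {q | Differentiable ℂ q ∧ ∀ t c, q (act t c) = χ a t * q c}

/-- (Crv) `C` is the multicone over a closed, possibly disconnected, nodal curve (near each point one smooth
branch or two branches with different tangents) of arithmetic genus `g` and multidegree `m`, on which
every `O(a)`, `a ≠ 0`, has only polynomial sections and `h⁰ = a · m + 1 - g`; the `p i` are distinct
smooth points. The torus acts freely exactly at the vectors with all components non-zero. -/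
def c66 (g : ℤ) (m : ι → ℤ) (p : Fin n → E) : Prop :=
  (∀ c ∈ closure C, c ∈ C ↔ Injective fun t => act t c) ∧ (∀ c ∈ C, ∀ c', c60 act c c' → c' ∈ C) ∧
  (∀ c ∈ C, ∃ γ δ, (c62 act C γ ∧ γ 0 = c ∧ δ = γ ∨ c63 act C c γ δ) ∧
    ∀ ε > 0, ∀ᶠ y in 𝓝[C] c, ∃ t z, ‖z‖ < ε ∧ (y = act t (γ z) ∨ y = act t (δ z))) ∧
  (∀ a, (∃ i, a i ≠ 0) →
    (∀ f, c64 act C (fun t z => χ a t * z) (fun _ => {0}) f → ∃ q ∈ c65 act χ a, EqOn f q C) ∧
    (Set.finrank ℂ (C.domRestrict '' c65 act χ a) : ℤ) = ∑ i, a i * m i + 1 - g) ∧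
  (∀ i, p i ∈ C ∧ ∀ γ δ, ¬c63 act C (p i) γ δ) ∧ ∀ i j, c60 act (p i) (p j) → i = j

/-- (Stb) `(C, p, f)` is a stable map to the quotient of `C'`: a holomorphic map from a pointed nodal curve
with finitely many automorphisms. -/
def c72 (g : ℤ) (m : ι → ℤ) (p : Fin n → E) (f : E → E') : Prop :=
  c66 act C χ g m p ∧ c70 act act' C C' f ∧
    ∃ Φ : Finset (E → E), ∀ φ, c71 act act act' C C p p f f φ → ∃ ψ ∈ Φ, ∀ c ∈ C, c60 act (ψ c) (φ c)

end

section

variable {A B B' W E V P X Y ι Λ : Type} [NormedRing A] [NormedAlgebra ℂ A] [NormedRing B]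
  [NormedAlgebra ℂ B] [Monoid B'] [NormedAddCommGroup W] [NormedSpace ℂ W] [NormedAddCommGroup E]
  [NormedSpace ℂ E] [NormedAddCommGroup V] [NormedSpace ℂ V] [NormedAddCommGroup P] [NormedSpace ℂ P]
  [NormedAddCommGroup X] [NormedSpace ℂ X] [TopologicalSpace Y] [Fintype ι] {n : ℕ}

/-- (Rep) A holomorphic representation of `Aˣ` on a finite dimensional space. -/
def c56 (act : A → W → W) : Prop :=
  FiniteDimensional ℂ (A × W) ∧ (∀ x, act 1 x = x) ∧ ∀ u, IsUnit u → IsLinearMap ℂ (act u) ∧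
    ∀ x, AnalyticAt ℂ (uncurry act) (u, x) ∧ ∀ w, IsUnit w → act (u * w) x = act u (act w x)

/-- (Cls) The curve `C` is connected and the map `f` to `Y`, the quotient `π` of `K`, has class `β`. -/
def c81 (act : B → E → E) (C : Set E) {K : Set X} (π : K → Y) (f : E → X) (β : c10 Y) : Prop :=
  IsConnected C ∧ ∃ γ u, c28 act C γ ∧ (∀ c, ∃ h, u c = π ⟨f (c44 act C c), h⟩) ∧
    ∀ a, c14 a → β a = γ (c18 u a)

/-- (Intg) `z` is the integral of `∏ ψ_i^{m_i} ev_i^* c_i`, `l i = (m_i, c_i)`, against the virtual class over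
the open and closed part `q` of the compact space `sol / Aˣ`; `ψ_i = - c₁(T i / D i)`. -/
def c90 (act : A → W → W) (ρ : A → P → P) (S sol : Set W) (van obs : W → Set P) (σ : W → P)
    (q : W → Prop) (ev : Fin n → W → Y → Prop) (ρ' : Fin n → A → E → E) (T D : Fin n → W → Set E)
    (l : Fin n → ℕ × c9 Y) (z : ℂ) : Prop :=
  let Q := c4 act sol
  let o : Q → W := c44 act sol
  ∃ (v : c10 Q) (u : Fin n → Q → Y) (e : Fin n → c9 Q),
    let a : c9 Q := c23 (c82 fun y => q (o y))
      (c25 (List.ofFn fun i => c23 (c25 (List.replicate (l i).1 fun w => -e i w)) (c18 (u i) (l i).2)))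
    c89 act ρ S sol van obs σ v ∧ (∀ i y, ev i (o y) (u i y)) ∧
    (∀ i, c46 act (ρ' i) sol (T i) (D i) (e i)) ∧ CompactSpace Q ∧ c14 a ∧ z = v a

/-! The data of a presentation: the group `G = Aˣ` acts on `W, E, V, P` by `α, ε, ν, ρ`, the torus `Bˣ`
on `E` by `τ`; the point `x ∈ S` has the curve `C x` of multidegree `m`, the marked points `p i x` and
the map `s (x, ·)` to `ℙ(V)`, of multidegree `a`; `j` embeds the product of the curve and of the target
in the product of the curve and of `ℙ(V)`, with equations `H l`; the vectors of `P` are functions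
`ev κ l` on the curves, `σ` is the section and `f x` is the map to the target. -/

variable (α : A → W → W) (ε : A → E → E) (ν : A → V → V) (ρ : A → P → P) (τ : B → E → E)
  (r : A → Λ → Λ) (t : Fin n → A → B) (S : Set W) (d : ℕ) (C : W → Set E) (m : ι → ℤ)
  (p : Fin n → W → E) (a b : ι → ℕ) (s : W × E → V) (j : E × X → V) (H : Λ → E × V → ℂ)
  (ev : P → Λ → W × E → ℂ) (σ : W → P) (f : W → E → X)
  (χ : (ι → ℕ) → B → ℂ) (sc : B' → X → X) (K : Set X) (TK : X → Set X) (g : ℤ)

/-- (U) The total space of the family. -/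
def c68 : Set (W × E) := {q | q.1 ∈ S ∧ q.2 ∈ C q.1}

/-- (Im) The image of a subset of the cone over the target. -/
def c54 (c : E) : Set V := (fun y => j (c, y)) '' K

/-- (Sol) The points whose map `s` has values in the target. -/
def c55 : Set W := {x | x ∈ S ∧ ∀ c ∈ C x, s (x, c) ∈ c54 j K c}

/-- (Van) The functions vanishing on the curve. -/
def c75 (x : W) : Set P := {κ | ∀ c ∈ C x, ∀ l, ev κ l (x, c) = 0}

/-- (Sc) Sections of a quotient of `V ⊗ O(a)`. -/
def c76 (x : W) : (E → Set V) → (E → V) → Prop := c64 τ (C x) fun u w => χ a u • w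

/-- (Nm) Sections of the pull-back of the normal bundle of the target in `ℙ(V)`. -/
def c77 (x : W) : (E → V) → Prop := c76 τ C a χ x fun c => c54 j (TK (f x c)) c

/-- (Df) `κ` is the differential of the equations applied to `e`. -/
def c78 (x : W) (κ : P) (e : E → V) : Prop :=
  ∀ c ∈ C x, ∀ l, ev κ l (x, c) = fderiv ℂ (H l) (c, s (x, c)) (0, e c)

/-- (Eqv) All data are equivariant. -/
def c57 : Prop :=
  c56 α ∧ c56 ε ∧ c56 ν ∧ c56 ρ ∧ c56 τ ∧ (∀ c, IsLinearMap ℂ fun w => τ w c) ∧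
  ∀ u, IsUnit u → (∀ i, IsUnit (t i u)) ∧
    (∀ c, (∀ w, ε u (τ w c) = τ w (ε u c)) ∧ (∀ y, j (ε u c, y) = ν u (j (c, y))) ∧
      ∀ l w, H l (ε u c, ν u w) = H (r u l) (c, w)) ∧
    ∀ x ∈ S, α u x ∈ S ∧ C (α u x) = ε u '' C x ∧
      (∀ i, p i (α u x) = τ (t i u) (ε u (p i x))) ∧
      ∀ c ∈ C x, s (α u x, ε u c) = ν u (s (x, c)) ∧
        ∀ κ l, ev (ρ u κ) l (α u x, ε u c) = ev κ (r u l) (x, c)

/-- (Emb) `j` is a holomorphic family of linear embeddings of multidegree `b`, and the `H l` are reduced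
equations of the image of the cone `K`, whose tangent spaces are `TK`. -/
def c58 : Prop :=
  Differentiable ℂ j ∧ (∀ l, Differentiable ℂ (H l)) ∧ ∀ c, IsLinearMap ℂ (fun y => j (c, y)) ∧
    (∀ u y, j (τ u c, y) = χ b u • j (c, y)) ∧ ((Injective fun u => τ u c) →
      (Injective fun y => j (c, y)) ∧ (∀ w ≠ 0, (∀ l, H l (c, w) = 0) ↔ w ∈ c54 j K c) ∧
      ∀ y ∈ K, ∀ w, (∀ l, fderiv ℂ (H l) (c, j (c, y)) (0, w) = 0) ↔ w ∈ c54 j (TK y) c)

variable (A) in
/-- (Fam) `S` is a manifold of dimension `d = dim G + χ(s^* T ℙ(V)) + 3 g - 3 + n`, the curves form a flat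
family (equations extend), `s` and the functions `ev κ l` are holomorphic, `σ` is `H(s)`. -/
def c69 : Prop :=
  (∃ i, a i ≠ 0) ∧ (∀ i, Differentiable ℂ (p i)) ∧ (∀ l q, IsLinearMap ℂ fun κ => ev κ l q) ∧
  ∀ x ∈ S, (d : ℤ) = Module.finrank ℂ A +
      (Module.finrank ℂ V * (∑ i, a i * m i + 1 - g) - (1 - g)) + (3 * g - 3 + n) ∧
    c59 (c20 d) S x ∧ c66 τ (C x) χ g m (p · x) ∧
    (∀ k, ∀ q ∈ c65 τ χ k, (∀ c ∈ C x, q c = 0) → ∃ Q : W × E → ℂ, (∀ c, Q (x, c) = q c) ∧
      (∀ y, (fun c => Q (y, c)) ∈ c65 τ χ k) ∧ (∀ c, AnalyticAt ℂ Q (x, c)) ∧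
      ∀ᶠ y in 𝓝[S] x, ∀ c ∈ C y, Q (y, c) = 0) ∧
    ∀ c ∈ C x, (∃ h, c67 (c68 S C) s (x, c) h) ∧
      (∀ u, IsUnit u → s (x, τ u c) = χ a u • s (x, c)) ∧
      ∀ l, ev (σ x) l (x, c) = H l (c, s (x, c)) ∧ ∀ κ, ∃ h, c67 (c68 S C) (ev κ l) (x, c) h

/-- (Obs) The obstruction theory at `x`: `P / van` is a vector bundle that contains all sections of the normal
bundle; the tangent space `T` of `S` relative to the stack of pointed nodal curves (tangent vectors `v`
with a lift `ξ` to the family) maps onto `H⁰(s^* T ℙ(V))` with kernel the Lie algebra of `G`. -/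
def c79 (x : W) : Prop :=
  let T := fun v ξ => v ∈ c74 S x ∧ c64 τ (C x) τ (c61 τ) ξ ∧
    (∀ c ∈ C x, (v, ξ c) ∈ c74 (c68 S C) (x, c)) ∧
    ∀ i, ξ (p i x) - fderiv ℂ (p i) x v ∈ c61 τ (p i x)
  let L := fun c => range fun z : ℂ => z • s (x, c)
  let R := fun v (ξ : E → E) (e : E → V) => ∀ c ∈ C x, ∀ h, c67 (c68 S C) s (x, c) h →
    fderiv ℂ h (x, c) (v, ξ c) - fderiv ℂ j (c, f x c) (ξ c, 0) - e c ∈ L c
  (∀ᶠ y in 𝓝[S] x, Set.finrank ℂ (c75 C ev y) = Set.finrank ℂ (c75 C ev x)) ∧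
  (∀ e, c77 τ C a j f χ TK x e → ∃ κ, c78 C s H ev x κ e) ∧
  (∀ e, c76 τ C a χ x L e → ∃ v ξ, T v ξ ∧ R v ξ e) ∧
  ∀ v ξ, T v ξ → R v ξ (fun _ => 0) → ∃ u, v = fderiv ℂ (α · x) 1 u ∧
    ∀ c ∈ C x, ξ c - fderiv ℂ (ε · c) 1 u ∈ c61 τ c

/-- (Grp) The points of `sol` are stable maps and their isomorphisms are the elements of `G`. -/
def c73 (x : W) : Prop :=
  (∀ c ∈ C x, s (x, c) = j (c, f x c)) ∧ c72 τ sc (C x) K χ g m (p · x) (f x) ∧
  ∀ y ∈ c55 S C s j K, ∀ φ, c71 τ τ sc (C x) (C y) (p · x) (p · y) (f x) (f y) φ →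
    ∃! u, IsUnit u ∧ α u x = y ∧ ∀ c ∈ C x, c60 τ (ε u c) (φ c)

variable (A W V P Λ) in
/-- (Pres) There is a presentation of the moduli stack of stable maps to `Y`, the quotient `π` of `K`, with
its obstruction theory, which contains all connected stable maps of genus `g` and class `β` and in
which the integrals are `N`. The group acts properly; tangent vectors of the curves that lie in `Q c`
are tangent to the orbits of the torus. -/
def c91 (Q : E → Set E) (π : K → Y) (β : c10 Y) (N : (Fin n → ℕ × c9 Y) → ℂ) : Prop :=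
  ∃ (α : A → W → W) (ε : A → E → E) (ν : A → V → V) (ρ : A → P → P)
    (r : A → Λ → Λ) (t : _) (S : _) (d : _) (C : _) (m : _) (p : _) (a b : _) (s : _) (j : _) (H : _)
    (ev : _) (σ : _) (f : _),
  let Z := c55 S C s j K
  c57 α ε ν ρ τ r t S C p s j H ev ∧ c58 τ b j H χ K TK ∧ c69 A τ S d C m p a s H ev σ χ g ∧
  (∀ x ∈ Z, c73 α ε τ S C m p s j f χ sc K g x ∧ c79 α ε τ S C p a s j H ev f χ TK x) ∧
  (∀ x ∈ S, ∀ c ∈ C x, ∀ v ∈ c74 (C x) c, v ∈ Q c → v ∈ c61 τ c) ∧
  (∀ L ⊆ S, IsCompact L → IsCompact {u | IsUnit u ∧ ∃ x ∈ L, α u x ∈ L}) ∧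
  (∀ M (C' : Set (c20 M)) m' p' f', c72 (E := c20 M) c5 sc C' K c80 g m' p' f' →
    c81 (E := c20 M) c5 C' π f' β →
    ∃ x ∈ Z, ∃ φ, c71 (E := c20 M) c5 τ sc C' (C x) p' (p · x) f' (f x) φ) ∧
  ∀ l z, (∀ i, c14 (l i).2) → (c90 α ρ S Z (c75 C ev)
    (fun x => {κ | ∃ e, c77 τ C a j f χ TK x e ∧ c78 C s H ev x κ e}) σ
    (fun x => c81 τ (C x) π (f x) β)
    (fun i x y => ∃ h, y = π ⟨f x (p i x), h⟩) (fun i u c => τ (t i u) (ε u c))
    (fun i x => c74 (C x) (p i x)) (fun i x => c61 τ (p i x)) l z ↔ z = N l)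

/-- (GW) `N` are the Gromov-Witten invariants of genus `g` and class `β` with `n` insertions. The curves
lie in `∏ ℙ(ℂ^(M i))` and their projection to the factor `o` is an immersion. -/
def c95 (sc : B' → X → X) (K : Set X) (TK : X → Set X) (π : K → Y) (g : ℤ) (β : c10 Y) (n : ℕ)
    (N : (Fin n → ℕ × c9 Y) → ℂ) : Prop :=
  ∃ (A W V ι Λ : Type) (_ : NormedRing A) (_ : NormedAlgebra ℂ A) (_ : NormedAddCommGroup W)
    (_ : NormedSpace ℂ W) (_ : NormedAddCommGroup V) (_ : NormedSpace ℂ V) (_ : Fintype ι)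
    (M : ι → ℕ) (r : ℕ) (o : ι),
    c91 A W V (c20 r) Λ (fun t (c : c92 M) i => t i • c i) (c80 (ι := ι)) sc K TK g
      (fun c => {v | ∃ z : ℂ, v o = z • c o}) π β N

end

section

variable {A E Y : Type} [NormedRing A] [NormedAddCommGroup E] [NormedSpace ℂ E] (act : A → E → E)
  (S : Set E) (T : E → Set E)

/-- (IsCan) `e` represents `c₁(K_X)` for `X = S / Aˣ` of dimension `n`, where `a` acts on `E` by the scalar
`χ a` and `T x` is the tangent space of `S`. The fibre of `K_X` at `x` is the space of alternating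
`n`-forms on `T x` that vanish on the direction `x` of the orbit. -/
def c53 (χ : A → ℂ) (n : ℕ) : c9 (c4 act S) → Prop :=
  c46 act (fun a (ω : E [⋀^Fin n]→L[ℂ] ℂ) => ω.compContinuousLinearMap ((χ a)⁻¹ • .id ℂ E)) S
    (fun x => {ω | ∀ v, (∀ s, v s ∈ T x) → (∃ s, v s = x) → ω v = 0})
    fun x => {ω | ∀ v, (∀ s, v s ∈ T x) → ω v = 0}

/-- (dk) The derivative of order `k`. -/
def c36 {V : Type} [NormedAddCommGroup V] [NormedSpace ℝ V] (k : ℕ) (f : V → ℂ) (x : V)
    (v : Fin k → V) : ℂ := (iteratedFDeriv ℝ k f x).toFun v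

/-- (IsHodge) The cocycle `a` represents a class in `H^{p,q}`: it has degree `k = p + q`, it is smooth near the
diagonal and its differential form `∑ sign σ ∂_{v σ 1} ⋯ ∂_{v σ k} a(x, ·, …, ·)` (the de Rham
representative, pulled back by `π` to the cone `S`) has type `(p, q)`. -/
def c37 (π : S → Y) (p q : ℕ) (a : c9 Y) : Prop :=
  let k := p + q
  let k' := k + 1
  c16 k a ∧ ∀ x : S, ∃ f : (Fin k' → E) → ℂ,
    let ω := fun v : Fin k → E => ∑ σ : Equiv.Perm (Fin k), (Equiv.Perm.sign σ : ℤ) *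
      c36 k f (fun _ => x) fun i => Pi.single i.succ (v (σ i))
    ContDiff ℝ (⊤ : ℕ∞) f ∧
      (∀ᶠ z : Fin k' → S in 𝓝 fun _ => x, f (fun i => z i) = a (List.ofFn fun i => π (z i))) ∧
      ∀ v (s : ℂ), (∀ i, v i ∈ T x) → ω (fun i => s • v i) = s ^ p * (starRingEnd ℂ s) ^ q * ω v

end

/-! Formal series in supercommuting variables `t^a_m`, `(m, a) : ℕ × I`, Novikov variables `Q^β` and
`ħ`: `F [i₁, …, i_n] β j` is the coefficient of `Q^β ħ^j` in `∂_{i_n} ⋯ ∂_{i₁} F` at `t = 0`, that is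
`F = ∑ (1 / n!) F [i₁, …, i_n] t^{i₁} ⋯ t^{i_n}`; `π a` is the cohomological degree of `a`. -/

variable {I Γ : Type} [AddCommGroup Γ] [Fintype I] [DecidableEq I] (π : I → ℕ)

/-- (sg) The Koszul sign. -/
def c30 (i : ℕ × I) (l : List (ℕ × I)) : ℂ := (-1) ^ (π i.2 * (l.map fun j => π j.2).sum)

/-- (tmul) Multiplication by the variable `t^i`. -/
def c31 (i : ℕ × I) (F : List (ℕ × I) → ℂ) (l : List (ℕ × I)) : ℂ :=
  ∑ s : Fin l.length, if l.get s = i then c30 π i (l.take s) * F (l.eraseIdx s) else 0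

/-- (smul) The product, determined by the constant terms and the Leibniz rule. -/
def c33 (l : List (ℕ × I)) : (F G : List (ℕ × I) → Γ → ℤ → ℂ) → Γ → ℤ → ℂ :=
  l.foldr (fun i P F G β j => P (fun l => F (i :: l)) G β j +
      P (fun l β j => c30 π i l * F l β j) (fun l => G (i :: l)) β j)
    fun F G β j => ∑ᶠ x : Γ × ℤ, F [] x.1 x.2 * G [] (β - x.1) (j - x.2)

/-- (sexp) The exponential. -/
def c34 (F : List (ℕ × I) → Γ → ℤ → ℂ) (l : List (ℕ × I)) (β : Γ) (j : ℤ) : ℂ :=
  ∑ᶠ n : ℕ, (fun P l => c33 π l F P)^[n]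
    (fun l β j => if l = [] ∧ β = 0 ∧ j = 0 then 1 else 0) l β j / n.factorial

/-- (esy) Getzler's `[x]^k_i = e_{k+1-i}(x, x + 1, …, x + k)`, for `k = k' - 1`. -/
def c29 (k' i : ℕ) (x : ℂ) : ℂ :=
  (∏ j ∈ Finset.range k', (Polynomial.X + Polynomial.C (x + j))).coeff i

/-- (virL) The coefficient `l`, `ħ^j` of `L_k F`, `k = k' - 1`, for the Virasoro operator `L_k` of a target of
dimension `n` with grading `μ a = p a - n / 2`, Poincaré pairing `η`, matrix `R` of `c₁(TX) ∪` and
coordinates `u` of the unit. -/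
def c32 (p : I → ℕ) (u : I → ℂ) (η R : Matrix I I ℂ) (n k' : ℕ) (F : ℤ → List (ℕ × I) → ℂ) (j : ℤ)
    (l : List (ℕ × I)) : ℂ :=
  let h : ℂ := 1 / (2 : ℕ)
  let μ : I → ℂ := fun a => p a - h * n
  let Q : ℕ → Matrix I I ℂ := fun i => R ^ i
  (∑ i ∈ Finset.range (k' + 1),
    ((∑ᶠ m : ℕ, if i + 1 ≤ m + k' then ∑ a, ∑ b, c29 k' i (μ a + m + h) * Q i a b *
        c31 π (m, a) (fun l => F j ((m + k' - (i + 1), b) :: l)) l else 0) -
      (∑ a, ∑ b, c29 k' i (h * ((3 : ℕ) - n)) * u a * Q i a b * F j ((k' - i, b) :: l)) +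
      ∑ m ∈ Finset.range (k' - (i + 1)), ∑ a, ∑ b, ∑ c,
        h * (-1) ^ (m + 1) * η⁻¹ a b * c29 k' i (μ b - m - h) * Q i b c *
          F (j - 1) ((m, a) :: (k' - (i + 2) - m, c) :: l))) +
  (∑ a, ∑ b, h * (Q k' * η) a b * c31 π (0, a) (c31 π (0, b) (F (j + 1))) l) +
  (if k' = 1 then ∑ a, (-1) ^ π a * (h ^ 4 - h ^ 2 * μ a ^ 2) else 0) * F j l

/-- (Vir) The Virasoro constraints for a target `Y` of dimension `n` with Hodge types `Hdg`, fundamental
class `Fund`, canonical class `Can`, for numbers `N` that are the invariants `GW`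
(in some presentation, and every presentation gives the same numbers): they vanish unless
`β` has a degree `d ≥ 0` in the stable range, finitely many classes `β` occur for given `g`, `n`, `d`
(so all sums in the exponential are finite), and they satisfy `Chk`; there are cocycles `φ a` of Hodge types `(p a, q a)` whose classes form a basis, and for all such
bases the operators `L_k`, `k ≥ -1`, annihilate `Z = exp (∑ ħ^(g-1) F_g)`. -/
def c35 {Y : Type} [TopologicalSpace Y] (Hdg : ℕ → ℕ → c9 Y → Prop) (Fund : c10 Y → Prop)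
    (Can : c9 Y → Prop) (GW : ℤ → c10 Y → ∀ n, ((Fin n → ℕ × c9 Y) → ℂ) → Prop)
    (Chk : (ℤ → c10 Y → ∀ n, (Fin n → ℕ × c9 Y) → ℂ) → Prop) (n : ℕ) : Prop :=
  let Dt := fun (B : ℕ) (φ : Fin B → c9 Y) (p q : Fin B → ℕ) (η R : Matrix (Fin B) (Fin B) ℂ)
      (u : Fin B → ℂ) =>
    let E := fun x (y : Fin B → ℂ) => c17 univ x fun l => ∑ b, y b * φ b l
    (∀ a, c14 (φ a) ∧ Hdg (p a) (q a) (φ a)) ∧ (∀ x, c14 x → ∃! y, E x y) ∧ E c24 u ∧
      (∃ X, Fund X ∧ ∀ a b, η a b = X (c23 (φ a) (φ b))) ∧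
      ∃ e, Can e ∧ ∀ a, E (fun l => -c23 e (φ a) l) (R a)
  ∃ (N : ℤ → c10 Y → ∀ n, (Fin n → ℕ × c9 Y) → ℂ) (h : c9 Y),
  (∀ g β n, 0 ≤ g → c15 β → GW g β n (N g β n) ∧
    ∀ M, GW g β n M → ∀ l, (∀ i, c14 (l i).2) → M l = N g β n l) ∧
  (∀ g β n l, N g β n l ≠ 0 → 0 ≤ g ∧ c15 β ∧ ∃ d : ℕ, β h = d ∧ 0 < 2 * g - 2 + n + 3 * d) ∧
  (∀ g n (d : ℕ), {β : c10 Y | β h = d ∧ ∃ l, N g β n l ≠ 0}.Finite) ∧ Chk N ∧
  (∃ B φ p q η R u, Dt B φ p q η R u) ∧
  ∀ B φ p q η R u, Dt B φ p q η R u →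
    let π := fun a => p a + q a
    ∀ k β j l, c32 π p u η R n k (fun j l => c34 π (fun l β j =>
      N (j + 1) β l.length fun i => ((l.get i).1, φ (l.get i).2)) l β j) j l = 0

variable {J K : Type} [Fintype J] (F : K → MvPolynomial J ℂ)

/-- (cone) The cone over the subvariety of projective space cut out by the polynomials `F k`. -/
def c2 : Set (J → ℂ) := {x | (∃ j, x j ≠ 0) ∧ ∀ k, eval x (F k) = 0}

/-- (Var) The subvariety of projective space. -/
def c6 : Type := c4 c5 (c2 F)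

instance c8 : TopologicalSpace (c6 F) := c7 _ _

/-- (Conj) The Virasoro conjecture for the subvariety, of dimension `n` and cut out by equations of degrees
`d`; `T x` is the tangent space of the cone. The invariants also pass three checks in positive degree:
the primary invariants of the fundamental class of a line, the 27 lines on a cubic surface, and the
genus one invariant of the fundamental class of a plane cubic. -/
def c97 (d : K → ℕ) (n : ℕ) : Prop :=
  let S := c2 F
  let T := fun x : J → ℂ => {v | ∀ k, ∑ j, v j * eval x (pderiv j (F k)) = 0}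
  let Y := c6 F
  let π : S → Y := Quot.mk _
  let X : c10 Y → Prop := c28 c5 S
  c35 (c37 S T π) X (c53 c5 S T (fun t => t ()) n) (c95 c5 S T π)
    (fun N => (n = 1 → (∀ k, d k = 1) → ∀ β, X β → ∀ m (a : Fin m → c9 Y),
        (∀ i, c14 (a i) ∧ c16 2 (a i)) → N 0 β m (fun i => (0, a i)) = ∏ i, β (a i)) ∧
      (n = 2 → Fintype.card J = 4 → (∀ k, d k = 3) → ∑ᶠ β, N 0 β 0 Fin.elim0 = 27) ∧
      (n = 1 → Fintype.card J = 3 → (∀ k, d k = 3) → ∀ β, X β → N 1 β 0 Fin.elim0 = 1)) n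

end Vale.Agent.P269L.Pn
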