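import Vale.Agent.P269L.Pn.All
import Vale.Agent.P269L.Pk.Br
import Vale.Agent.P269L.K.Nar

/-!
# The narrowed text, from the independence among normal presentations
-/

namespace Vale.Agent.P269L.Pn

open Set Function P269 MvPolynomial

theorem eIsCyc : @c27 = @Pk.c27 := (rfl)

theorem eIsFund : @c28 = @Tx.IsFund := (rfl)

theorem eIsLoc : @c45 = @Pk.c45 := (rfl)

theorem eIsEuler : @c46 = @Pk.c46 := (rfl)

theorem eIni : @c84 = @Pk.c84 := (rfl)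

theorem eVirE : @c89 = @Pk.c89 := by
  unfold c89 Pk.c89
  rw [eIsCyc, eIsLoc, eIni]
  rfl

theorem eIntg : @c90 = @I.Intg := by
  rw [← Pk.eIntg]
  unfold c90 Pk.c90
  rw [eVirE, eIsEuler]
  rfl

theorem eIsGW : @c95 = @Nw.IsGW := by
  funext B' X Y _ _ _ _ sc K TK π g β n N
  unfold c95 Nw.IsGW c91
  rw [eIntg]
  refine propext (exists₅_congr fun A W V ι Λ => exists₅_congr fun _ _ _ _ _ =>
    exists₅_congr fun _ _ M r o => ?_)
  exact ⟨fun ⟨α, ε, ν, ρ, r, t, S, d, C, m, p, a, b, s, j, H, ev, σ, f, h1, h2, h3, h4, h5, h6, h7⟩ =>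
    ⟨⟨α, ε, ν, ρ, I.sm M, r, t, S, d, C, m, p, a, b, s, j, H, ev, σ, f⟩,
      ⟨rfl, fun x hx c hc v hv z e => h5 x hx c hc v hv ⟨z, e⟩, h6⟩, h1, h2, h3, h4, h7⟩, by
    rintro ⟨⟨α, ε, ν, ρ, τ, r, t, S, d, C, m, p, a, b, s, j, H, ev, σ, f⟩, ⟨rfl, h5, h6⟩,
      h1, h2, h3, h4, h7⟩
    exact ⟨α, ε, ν, ρ, r, t, S, d, C, m, p, a, b, s, j, H, ev, σ, f, h1, h2, h3, h4,
      fun x hx c hc v hv ⟨z, e⟩ => h5 x hx c hc v hv z e, h6, h7⟩⟩

theorem eIsHodge : @c37 = @Pub.IsHodge := (rfl)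

theorem eIsCan : @c53 = @Pub.IsCan := (rfl)

theorem vir_of {Y : Type} [TopologicalSpace Y] {Hdg Fund Can GW Chk n}
    (h : J.VirC (Y := Y) Hdg Fund Can GW (fun N _ => Chk N) n)
    (U : ∀ g β n N M, 0 ≤ g → Pub.IsBM β → GW g β n N → GW g β n M →
      ∀ l, (∀ i, Pub.Zc (l i).2) → M l = N l) : c35 (Y := Y) Hdg Fund Can GW Chk n :=
  let ⟨N, s, h1, h2⟩ := h
  ⟨N, s, fun g β n a b => ⟨h1 g β n a b, fun M c => U g β n _ M a b (h1 g β n a b) c⟩, h2⟩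

theorem fin_of (N r : ℕ) (d : Fin r → ℕ) (F : Fin r → MvPolynomial (Fin (N + 1)) ℂ)
    (hF : ∀ k, (F k).IsHomogeneous (d k))
    (hs : ∀ x ∈ c2 F, LinearIndependent ℂ fun k j => eval x (pderiv j (F k)))
    (hc : ConnectedSpace (c6 F)) (U : Nw.Uniq F) : c97 F d (N - r) := by
  have h := Nw.conj N r d F hF hs hc
  unfold Nw.Conj at h
  unfold c97
  rw [eIsGW, eIsHodge, eIsCan, eIsFund]
  exact vir_of h U

end Vale.Agent.P269L.Pn
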